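import Mathlib

/-!
# A rate obstruction for ultraflat real Littlewood polynomials
-/

open Polynomial

namespace Vale.Agent.Lib.P110

variable {N : ℕ} (ε : Fin N → ℤ)

/-- the Littlewood polynomial with integer coefficients -/
noncomputable def Pz : ℤ[X] := ∑ k : Fin N, C (ε k) * X ^ (k : ℕ)

/-- its reciprocal polynomial -/
noncomputable def Qz : ℤ[X] := ∑ k : Fin N, C (ε k) * X ^ (N - 1 - (k : ℕ))

/-- `P P^* - N X^(N-1)` over the complex numbers -/
noncomputable def Sc : ℂ[X] :=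
  ((Pz ε * Qz ε).map (Int.castRingHom ℂ)) - C (N : ℂ) * X ^ (N - 1)

/-- all-ones polynomial over `ZMod 2` -/
noncomputable def U2 (N : ℕ) : (ZMod 2)[X] := ∑ k : Fin N, X ^ (k : ℕ)

lemma cast_eps {e : ℤ} (h : e = 1 ∨ e = -1) : ((e : ℤ) : ZMod 2) = 1 := by
  rcases h with rfl | rfl
  · simp
  · simp

lemma map_Pz (hε : ∀ k, ε k = 1 ∨ ε k = -1) :
    (Pz ε).map (Int.castRingHom (ZMod 2)) = U2 N := by
  unfold Pz U2
  rw [Polynomial.map_sum]
  apply Finset.sum_congr rfl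
  intro k _
  rw [Polynomial.map_mul, Polynomial.map_C, Polynomial.map_pow, Polynomial.map_X, eq_intCast,
    cast_eps (hε k), Polynomial.C_1, one_mul]

lemma map_Qz (hε : ∀ k, ε k = 1 ∨ ε k = -1) :
    (Qz ε).map (Int.castRingHom (ZMod 2)) = U2 N := by
  unfold Qz U2
  rw [Polynomial.map_sum]
  have : ∀ k : Fin N, Polynomial.map (Int.castRingHom (ZMod 2)) (C (ε k) * X ^ (N - 1 - (k : ℕ)))
      = X ^ ((Fin.rev k : Fin N) : ℕ) := by
    intro k
    have h1 : ((Fin.rev k : Fin N) : ℕ) = N - 1 - (k : ℕ) := by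
      rw [Fin.val_rev]; omega
    rw [Polynomial.map_mul, Polynomial.map_C, Polynomial.map_pow, Polynomial.map_X, eq_intCast,
      cast_eps (hε k), Polynomial.C_1, one_mul, h1]
  rw [Finset.sum_congr rfl (fun k _ => this k)]
  exact Equiv.sum_comp Fin.revPerm (fun k : Fin N => (X : (ZMod 2)[X]) ^ (k : ℕ))

lemma coeff_U2 {k : ℕ} (hk : k < N) : (U2 N).coeff k = 1 := by
  unfold U2
  rw [Polynomial.finsetSum_coeff]
  simp only [coeff_X_pow]
  rw [Finset.sum_eq_single (⟨k, hk⟩ : Fin N)]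
  · simp
  · intro b _ hb
    have : k ≠ (b : ℕ) := fun h => hb (Fin.ext h.symm)
    simp [this]
  · simp

lemma coeff_ne_zero (hε : ∀ k, ε k = 1 ∨ ε k = -1) {k : ℕ} (hk : k < N) :
    (Pz ε * Qz ε).coeff (2 * k) ≠ 0 := by
  intro h0
  have h1 : ((Pz ε * Qz ε).map (Int.castRingHom (ZMod 2))).coeff (2 * k) = 1 := by
    rw [Polynomial.map_mul, map_Pz ε hε, map_Qz ε hε, ← sq, ← ZMod.expand_card,
      coeff_expand_mul' (by norm_num), coeff_U2 hk]
  rw [Polynomial.coeff_map, h0] at h1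
  simp at h1

lemma Sc_coeff (hε : ∀ k, ε k = 1 ∨ ε k = -1) {k : ℕ} (hk : k < N) (hk2 : 2 * k ≠ N - 1) :
    1 ≤ ‖(Sc ε).coeff (2 * k)‖ ^ 2 := by
  have h1 : (Sc ε).coeff (2 * k) = (((Pz ε * Qz ε).coeff (2 * k) : ℤ) : ℂ) := by
    unfold Sc
    rw [Polynomial.coeff_sub, Polynomial.coeff_map, Polynomial.coeff_C_mul, coeff_X_pow]
    simp [hk2]
  rw [h1, Complex.norm_intCast]
  have h2 := coeff_ne_zero ε hε hk
  have h3 : (1 : ℝ) ≤ |(((Pz ε * Qz ε).coeff (2 * k) : ℤ) : ℝ)| := by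
    have : (1 : ℤ) ≤ |(Pz ε * Qz ε).coeff (2 * k)| := Int.one_le_abs h2
    exact_mod_cast this
  nlinarith

lemma sum_sq_coeff_ge (hε : ∀ k, ε k = 1 ∨ ε k = -1) :
    (N : ℝ) - 1 ≤ ∑ i ∈ (Sc ε).support, ‖(Sc ε).coeff i‖ ^ 2 := by
  classical
  set A := (Finset.range N).filter (fun k => 2 * k ≠ N - 1) with hA
  set T := A.image (fun k => 2 * k) with hT
  have hTsub : T ⊆ (Sc ε).support := by
    intro i hi
    obtain ⟨k, hk, rfl⟩ := Finset.mem_image.1 hi
    have hk' := Finset.mem_filter.1 hk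
    have := Sc_coeff ε hε (Finset.mem_range.1 hk'.1) hk'.2
    rw [Polynomial.mem_support_iff]
    intro h0
    rw [h0] at this
    norm_num at this
  have hcardT : T.card = A.card :=
    Finset.card_image_of_injective _ (fun a b h => by simpa using h)
  have hcardA : N - 1 ≤ A.card := by
    have h1 : (Finset.range N).filter (fun k => ¬ (2 * k ≠ N - 1)) ⊆ {(N - 1) / 2} := by
      intro k hk
      have := (Finset.mem_filter.1 hk).2
      simp only [Finset.mem_singleton]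
      omega
    have h2 := Finset.card_le_card h1
    have h3 : A.card + ((Finset.range N).filter (fun k => ¬ (2 * k ≠ N - 1))).card = N := by
      have := Finset.card_filter_add_card_filter_not (s := Finset.range N)
        (fun k => 2 * k ≠ N - 1)
      rwa [Finset.card_range] at this
    rw [Finset.card_singleton] at h2
    omega
  calc (N : ℝ) - 1 ≤ (T.card : ℝ) := by
        rw [hcardT]
        have : ((N - 1 : ℕ) : ℝ) ≤ (A.card : ℝ) := by exact_mod_cast hcardA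
        have h4 : (N : ℝ) - 1 ≤ ((N - 1 : ℕ) : ℝ) := by
          rcases Nat.eq_zero_or_pos N with h | h
          · subst h; simp
          · rw [Nat.cast_sub h]; simp
        linarith
    _ = ∑ i ∈ T, (1 : ℝ) := by simp
    _ ≤ ∑ i ∈ T, ‖(Sc ε).coeff i‖ ^ 2 := by
        apply Finset.sum_le_sum
        intro i hi
        obtain ⟨k, hk, rfl⟩ := Finset.mem_image.1 hi
        have hk' := Finset.mem_filter.1 hk
        exact Sc_coeff ε hε (Finset.mem_range.1 hk'.1) hk'.2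
    _ ≤ ∑ i ∈ (Sc ε).support, ‖(Sc ε).coeff i‖ ^ 2 :=
        Finset.sum_le_sum_of_subset_of_nonneg hTsub (fun _ _ _ => by positivity)

/-- there is a point of the unit circle where `|S|^2` is at least `N - 1` -/
lemma exists_large (hε : ∀ k, ε k = 1 ∨ ε k = -1) :
    ∃ z : ℂ, ‖z‖ = 1 ∧ (N : ℝ) - 1 ≤ ‖(Sc ε).eval z‖ ^ 2 := by
  have hcont : Continuous (fun z : ℂ => ‖(Sc ε).eval z‖ ^ 2) := by fun_prop
  obtain ⟨z0, hz0, hmax⟩ := (isCompact_sphere (0 : ℂ) 1).exists_isMaxOn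
    (NormedSpace.sphere_nonempty.2 zero_le_one) hcont.continuousOn
  refine ⟨z0, by simpa using hz0, ?_⟩
  have h1 := sum_sq_coeff_ge ε hε
  rw [Polynomial.sum_sq_norm_coeff_eq_circleAverage] at h1
  refine h1.trans ?_
  apply Real.circleAverage_mono_on_of_le_circle
  · exact hcont.continuousOn.circleIntegrable (by norm_num)
  · intro x hx
    exact hmax (by simpa using hx)

lemma eval_Sc (z : ℂ) (hz : ‖z‖ = 1) :
    ‖(Sc ε).eval z‖ = |‖∑ k : Fin N, (ε k : ℂ) * z ^ (k : ℕ)‖ ^ 2 - N| := by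
  set p := ∑ k : Fin N, (ε k : ℂ) * z ^ (k : ℕ) with hp
  have hzz : z * (starRingEnd ℂ) z = 1 := by
    rw [Complex.mul_conj, Complex.normSq_eq_norm_sq, hz]; simp
  have e1 : ((Pz ε).map (Int.castRingHom ℂ)).eval z = p := by
    unfold Pz
    simp [Polynomial.map_sum, Polynomial.eval_finsetSum, hp]
  have e2 : ((Qz ε).map (Int.castRingHom ℂ)).eval z = z ^ (N - 1) * (starRingEnd ℂ) p := by
    unfold Qz
    simp only [Polynomial.map_sum, Polynomial.eval_finsetSum, hp, map_sum, Finset.mul_sum]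
    apply Finset.sum_congr rfl
    intro k _
    have hk : (k : ℕ) ≤ N - 1 := by have := k.2; omega
    have h3 : z ^ (N - 1) = z ^ (N - 1 - (k : ℕ)) * z ^ (k : ℕ) := by
      rw [← pow_add]; congr 1; omega
    rw [Polynomial.map_mul, Polynomial.map_C, Polynomial.map_pow, Polynomial.map_X,
      Polynomial.eval_mul, Polynomial.eval_C, Polynomial.eval_pow, Polynomial.eval_X, map_mul,
      map_pow, eq_intCast, map_intCast]
    rw [h3]
    have h4 : z ^ (k : ℕ) * (starRingEnd ℂ) z ^ (k : ℕ) = 1 := by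
      rw [← mul_pow, hzz, one_pow]
    calc (ε k : ℂ) * z ^ (N - 1 - (k : ℕ))
        = (ε k : ℂ) * z ^ (N - 1 - (k : ℕ)) * (z ^ (k : ℕ) * (starRingEnd ℂ) z ^ (k : ℕ)) := by
          rw [h4, mul_one]
      _ = z ^ (N - 1 - (k : ℕ)) * z ^ (k : ℕ) * ((ε k : ℂ) * (starRingEnd ℂ) z ^ (k : ℕ)) := by
          ring
  have e3 : (Sc ε).eval z = z ^ (N - 1) * (((‖p‖ ^ 2 - N : ℝ)) : ℂ) := by
    unfold Sc
    rw [Polynomial.eval_sub, Polynomial.map_mul, Polynomial.eval_mul, e1, e2]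
    simp only [Polynomial.eval_mul, Polynomial.eval_C, Polynomial.eval_pow, Polynomial.eval_X]
    have h5 : p * (starRingEnd ℂ) p = ((‖p‖ ^ 2 : ℝ) : ℂ) := by
      rw [Complex.mul_conj, Complex.normSq_eq_norm_sq]
    calc p * (z ^ (N - 1) * (starRingEnd ℂ) p) - (N : ℂ) * z ^ (N - 1)
        = z ^ (N - 1) * (p * (starRingEnd ℂ) p - (N : ℂ)) := by ring
      _ = z ^ (N - 1) * (((‖p‖ ^ 2 - N : ℝ)) : ℂ) := by
          rw [h5]; push_cast; ring
  rw [e3, norm_mul, norm_pow, hz, one_pow, one_mul, Complex.norm_real, Real.norm_eq_abs]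

end Vale.Agent.Lib.P110
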